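/-
P235, line HUB (helper669): amalgam of two metrics along an edge.
-/
import Vale.Agent.P235.Hub.Defs

namespace Vale.Agent.P235.Hub.H669

open Vale.Agent.P235 Vale.Agent.P235.Hub

theorem ext_f {V : Type} {A B : Set V} {s t : V} (hI : A ∩ B = {s, t}) (hsA : s ∈ A)
    (htA : t ∈ A) (hsB : s ∈ B) (htB : t ∈ B) {DA : A → A → ℝ} {DB : B → B → ℝ}
    (hA : IsMet DA) (hB : IsMet DB)
    (hst : DA ⟨s, hsA⟩ ⟨t, htA⟩ = DB ⟨s, hsB⟩ ⟨t, htB⟩) (x : A) :
    ∃ f : V → ℝ, (∀ y : A, f y = DA x y) ∧ ∀ u v : B, |f u - f v| ≤ DB u v := by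
  classical
  let g : B → ℝ := fun z =>
    min (DA x ⟨s, hsA⟩ + DB ⟨s, hsB⟩ z) (DA x ⟨t, htA⟩ + DB ⟨t, htB⟩ z)
  let f : V → ℝ := fun z => if h : z ∈ A then DA x ⟨z, h⟩ else if h' : z ∈ B then g ⟨z, h'⟩ else 0
  have hgs : g ⟨s, hsB⟩ = DA x ⟨s, hsA⟩ := by
    have h1 := hA.tri x ⟨t, htA⟩ ⟨s, hsA⟩
    have h2 := hA.symm ⟨t, htA⟩ ⟨s, hsA⟩
    have h3 := hB.symm ⟨t, htB⟩ ⟨s, hsB⟩
    have h4 := hB.self ⟨s, hsB⟩
    simp only [g]
    rw [h4, add_zero, min_eq_left]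
    linarith
  have hgt : g ⟨t, htB⟩ = DA x ⟨t, htA⟩ := by
    have h1 := hA.tri x ⟨s, hsA⟩ ⟨t, htA⟩
    have h4 := hB.self ⟨t, htB⟩
    simp only [g]
    rw [h4, add_zero, min_eq_right]
    linarith
  have hfg : ∀ z : B, f z = g z := by
    rintro ⟨z, hz⟩
    by_cases hzA : z ∈ A
    · have hm : z ∈ A ∩ B := ⟨hzA, hz⟩
      rw [hI] at hm
      rcases hm with h | h
      · subst h
        simp only [f, dif_pos hzA]
        exact hgs.symm
      · rw [Set.mem_singleton_iff] at h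
        subst h
        simp only [f, dif_pos hzA]
        exact hgt.symm
    · simp only [f, dif_neg hzA, dif_pos hz]
  refine ⟨f, fun y => ?_, fun u v => ?_⟩
  · simp only [f, dif_pos y.2]
  · rw [hfg u, hfg v]
    have h1 := hB.tri ⟨s, hsB⟩ u v
    have h2 := hB.tri ⟨s, hsB⟩ v u
    have h3 := hB.tri ⟨t, htB⟩ u v
    have h4 := hB.tri ⟨t, htB⟩ v u
    have h5 := hB.symm v u
    simp only [g]
    refine (abs_min_sub_min_le_max _ _ _ _).trans (max_le ?_ ?_)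
    · rw [abs_le]; constructor <;> linarith
    · rw [abs_le]; constructor <;> linarith

theorem amalg (hS : SupStmt) : AmalgStmt := by
  intro V G d hd hG A B s t hU hI hno θ hθ hsA htA hsB htB DA DB hA hB hGA hGB hA1 hA2 hB1 hB2 hst
  classical
  let lam : V → V → ℝ := fun u v =>
    if h : u ∈ A ∧ v ∈ A then DA ⟨u, h.1⟩ ⟨v, h.2⟩
    else if h' : u ∈ B ∧ v ∈ B then DB ⟨u, h'.1⟩ ⟨v, h'.2⟩ else 0
  have hlA : ∀ u v : A, lam u v = DA u v := by
    intro u v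
    simp only [lam, dif_pos (And.intro u.2 v.2)]
  have hts : DA ⟨t, htA⟩ ⟨s, hsA⟩ = DB ⟨t, htB⟩ ⟨s, hsB⟩ := by
    rw [hA.symm, hB.symm, hst]
  have hlB : ∀ u v : B, lam u v = DB u v := by
    rintro ⟨u, hu⟩ ⟨v, hv⟩
    by_cases h : u ∈ A ∧ v ∈ A
    · have hu' : u ∈ A ∩ B := ⟨h.1, hu⟩
      have hv' : v ∈ A ∩ B := ⟨h.2, hv⟩
      rw [hI] at hu' hv'
      simp only [lam, dif_pos h]
      rcases hu' with e | e <;> rcases hv' with e' | e'
      · subst e; subst e'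
        rw [hA.self, hB.self]
      · rw [Set.mem_singleton_iff] at e'
        subst e; subst e'
        exact hst
      · rw [Set.mem_singleton_iff] at e
        subst e; subst e'
        exact hts
      · rw [Set.mem_singleton_iff] at e e'
        subst e; subst e'
        rw [hA.self, hB.self]
    · simp only [lam, dif_neg h, dif_pos (And.intro hu hv)]
  obtain ⟨D, hD, hD1, hD2, hD3, hD4⟩ := hS V G d hd hG θ hθ
    (fun u v => (u ∈ A ∧ v ∈ A) ∨ (u ∈ B ∧ v ∈ B)) lam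
    (by
      intro u v huv
      have hu : u ∈ A ∪ B := by rw [hU]; trivial
      have hv : v ∈ A ∪ B := by rw [hU]; trivial
      by_cases h1 : u ∈ A
      · by_cases h2 : v ∈ A
        · exact Or.inl ⟨h1, h2⟩
        · by_cases h3 : u ∈ B
          · exact Or.inr ⟨h3, hv.resolve_left h2⟩
          · exact absurd huv (hno u v h3 h2)
      · by_cases h2 : v ∈ B
        · exact Or.inr ⟨hu.resolve_left h1, h2⟩
        · exact absurd huv.symm (hno v u h2 h1))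
    (by
      rintro u v (⟨hu, hv⟩ | ⟨hu, hv⟩)
      · rw [hlA ⟨u, hu⟩ ⟨v, hv⟩]
        exact hA1 ⟨u, hu⟩ ⟨v, hv⟩
      · rw [hlB ⟨u, hu⟩ ⟨v, hv⟩]
        exact hB1 ⟨u, hu⟩ ⟨v, hv⟩)
    (by
      intro u v _
      by_cases h : u ∈ A ∧ v ∈ A
      · rw [hlA ⟨u, h.1⟩ ⟨v, h.2⟩]
        exact hA2 ⟨u, h.1⟩ ⟨v, h.2⟩
      · by_cases h' : u ∈ B ∧ v ∈ B
        · rw [hlB ⟨u, h'.1⟩ ⟨v, h'.2⟩]
          exact hB2 ⟨u, h'.1⟩ ⟨v, h'.2⟩
        · simp only [lam, dif_neg h, dif_neg h']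
          by_cases e : u = v
          · rw [e, hd.self]
          · exact (hd.pos u v e).le)
  have hlip : ∀ f : V → ℝ, (∀ u v : A, |f u - f v| ≤ DA u v) → (∀ u v : B, |f u - f v| ≤ DB u v) →
      ∀ x y, |f x - f y| ≤ D x y := by
    intro f h1 h2
    refine hD4 f ?_
    rintro u v (⟨hu, hv⟩ | ⟨hu, hv⟩)
    · rw [hlA ⟨u, hu⟩ ⟨v, hv⟩]
      exact h1 ⟨u, hu⟩ ⟨v, hv⟩
    · rw [hlB ⟨u, hu⟩ ⟨v, hv⟩]
      exact h2 ⟨u, hu⟩ ⟨v, hv⟩
  refine ⟨D, hD, ?_, hD1, hD2, ?_, ?_⟩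
  · intro f hf
    refine hlip f ?_ ?_
    · refine hGA (fun z : A => f z) ?_
      intro u v huv
      have h1 := hf u v huv
      have h2 := hD3 u v (Or.inl ⟨u.2, v.2⟩)
      rw [hlA u v] at h2
      exact h1.trans h2
    · refine hGB (fun z : B => f z) ?_
      intro u v huv
      have h1 := hf u v huv
      have h2 := hD3 u v (Or.inr ⟨u.2, v.2⟩)
      rw [hlB u v] at h2
      exact h1.trans h2
  · intro x y
    refine le_antisymm ?_ ?_
    · have h2 := hD3 x y (Or.inl ⟨x.2, y.2⟩)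
      rwa [hlA x y] at h2
    · obtain ⟨f, hf1, hf2⟩ := ext_f hI hsA htA hsB htB hA hB hst x
      have h := hlip f (fun u v => by
        rw [hf1 u, hf1 v, abs_le]
        have h1 := hA.tri x u v
        have h2 := hA.tri x v u
        have h3 := hA.symm v u
        constructor <;> linarith) hf2 y x
      rw [hf1 x, hf1 y, hA.self, sub_zero, hD.symm] at h
      exact (le_abs_self _).trans h
  · intro x y
    refine le_antisymm ?_ ?_
    · have h2 := hD3 x y (Or.inr ⟨x.2, y.2⟩)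
      rwa [hlB x y] at h2
    · have hI' : B ∩ A = {s, t} := by rw [Set.inter_comm, hI]
      obtain ⟨f, hf1, hf2⟩ := ext_f hI' hsB htB hsA htA hB hA hst.symm x
      have h := hlip f hf2 (fun u v => by
        rw [hf1 u, hf1 v, abs_le]
        have h1 := hB.tri x u v
        have h2 := hB.tri x v u
        have h3 := hB.symm v u
        constructor <;> linarith) y x
      rw [hf1 x, hf1 y, hB.self, sub_zero, hD.symm] at h
      exact (le_abs_self _).trans h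

end Vale.Agent.P235.Hub.H669
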